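import Mathlib

namespace Vale.Agent.P310

/-- The colour data after `r` rounds of `k`-dimensional Weisfeiler-Leman refinement.
Round `0`: the atomic type (for each pair of positions: equal? adjacent?).
Round `r + 1`: the old colour and a multiset of `k`-tuples of old colours. -/
def Color (k : ℕ) : ℕ → Type
  | 0 => Fin k → Fin k → Prop × Prop
  | r + 1 => Color k r × Multiset (Fin k → Color k r)

/-- The colour `C_r(x)` of the `k`-tuple `x` of vertices of `G` (joint-update refinement). -/
def color {V : Type} [Fintype V] (G : SimpleGraph V) (k : ℕ) :
    (r : ℕ) → (Fin k → V) → Color k r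
  | 0, x => fun i j => (x i = x j, G.Adj (x i) (x j))
  | r + 1, x => (color G k r x,
      (Finset.univ : Finset V).val.map fun y i => color G k r (Function.update x i y))

/-- `k`-WL equivalence: for every round the multisets of colours of all `k`-tuples coincide. -/
def WLEquiv (k : ℕ) {V : Type} [Fintype V] (G H : SimpleGraph V) : Prop :=
  ∀ r : ℕ, (Finset.univ : Finset (Fin k → V)).val.map (color G k r) =
    (Finset.univ : Finset (Fin k → V)).val.map (color H k r)

/-- A deterministic multitape Turing machine with `tapes + 1` two-way infinite tapes, a finite
state set `Q` and a finite tape alphabet `Γ`. Reading the state and the scanned symbols, it either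
halts with a Boolean answer, or moves to a new state and on every tape writes a symbol and moves
the head by `-1`, `0` or `1`. -/
structure TM where
  Q : Type
  Γ : Type
  finQ : Finite Q
  finΓ : Finite Γ
  tapes : ℕ
  start : Q
  blank : Γ
  bit : Bool → Γ
  δ : Q → (Fin (tapes + 1) → Γ) → Bool ⊕ (Q × (Fin (tapes + 1) → Γ × SignType))

/-- A configuration: state, tape contents and head positions. -/
structure TM.Cfg (M : TM) where
  state : M.Q
  tape : Fin (M.tapes + 1) → ℤ → M.Γ
  head : Fin (M.tapes + 1) → ℤ

/-- What the machine does in a configuration. -/
def TM.action (M : TM) (c : M.Cfg) :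
    Bool ⊕ (M.Q × (Fin (M.tapes + 1) → M.Γ × SignType)) :=
  M.δ c.state fun τ => c.tape τ (c.head τ)

/-- One step of the machine; a halted configuration does not change. -/
def TM.step (M : TM) (c : M.Cfg) : M.Cfg :=
  match M.action c with
  | .inl _ => c
  | .inr (q, act) =>
      { state := q
        tape := fun τ => Function.update (c.tape τ) (c.head τ) (act τ).1
        head := fun τ => c.head τ + ((act τ).2 : ℤ) }

/-- The start configuration: the input word is on cells `0, 1, 2, …` of tape `0`, all other
cells are blank, and all heads are on cell `0`. -/
def TM.initial (M : TM) (w : List Bool) : M.Cfg where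
  state := M.start
  tape := fun τ p => if τ = 0 ∧ 0 ≤ p then (w[p.toNat]?).elim M.blank M.bit else M.blank
  head := fun _ => 0

/-- On input `w`, after `t` steps the machine is halted with answer `b`. -/
def TM.HaltedAt (M : TM) (w : List Bool) (t : ℕ) (b : Bool) : Prop :=
  M.action (M.step^[t] (M.initial w)) = .inl b

/-- The running time on input `w`: the number of steps until the machine halts. -/
noncomputable def TM.time (M : TM) (w : List Bool) : ℕ :=
  sInf {t : ℕ | ∃ b : Bool, M.HaltedAt w t b}

open Classical in
/-- The adjacency matrix of `G`, row by row, as a word of `n * n` bits. -/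
noncomputable def matrixBits {n : ℕ} (G : SimpleGraph (Fin n)) : List Bool :=
  List.ofFn fun p : Fin (n * n) => decide (G.Adj p.divNat p.modNat)

/-- The input word for the pair `G, H`: the adjacency matrix of `G`, then that of `H`. -/
noncomputable def input {n : ℕ} (G H : SimpleGraph (Fin n)) : List Bool :=
  matrixBits G ++ matrixBits H

/-- `M` decides `k`-WL equivalence: on every pair of graphs of equal order it halts, and its
answer is `true` exactly when the graphs are `k`-WL equivalent. -/
def TM.DecidesWL (M : TM) (k : ℕ) : Prop :=
  ∀ (n : ℕ) (G H : SimpleGraph (Fin n)),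
    ∃ (t : ℕ) (b : Bool), M.HaltedAt (input G H) t b ∧ (b = true ↔ WLEquiv k G H)

/-- The worst-case running time `T_M(n)` over pairs of graphs with `n` vertices each. -/
noncomputable def TM.worstTime (M : TM) (n : ℕ) : ℕ :=
  ⨆ p : SimpleGraph (Fin n) × SimpleGraph (Fin n), M.time (input p.1 p.2)

end Vale.Agent.P310
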